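/-
StackLang.Core: a small structured language compiled to `Turing.FinTM2`.

`Cmd Γ P` : programs over finitely many stacks with per-stack alphabets; `P` is a finite type of
procedure names (recursion allowed, return addresses live on a hidden extra stack).
`Runs body p X t s X'` : big-step semantics; `t` bounds the TM2 steps and `s` bounds the total
number of symbols on the user stacks plus the current call depth.

Main results:
* `mkTM` : the machine of a program.
* `outputsInSpace_of_runs`, `outputsInTime_of_runs` : a derivation of `Runs` for the main program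
  gives `Crest.SpaceSim.OutputsInSpace` and `Turing.TM2OutputsInTime`.
-/
import Mathlib
import Crest.Prelude.Def_SpaceSim

set_option autoImplicit false

namespace Crest.Agent.StackLang

open Turing

universe u

variable {K : Type} [DecidableEq K] [Fintype K]

/-- The stacks of a configuration. -/
abbrev Stacks (Γ : K → Type) := ∀ k, List (Γ k)

/-- Total number of symbols. -/
def space {Γ : K → Type} (X : Stacks Γ) : ℕ := ∑ k, (X k).length

/-- Programs. `case k e f` pops stack `k` and continues with `e` (empty) or `f a`.
`loop k t b` peeks stack `k`; while the test holds it runs `b`. `call f` runs the body of `f`. -/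
inductive Cmd (Γ : K → Type) (P : Type) : Type
  | skip : Cmd Γ P
  | push (k : K) (a : Γ k) : Cmd Γ P
  | case (k : K) (e : Cmd Γ P) (f : Γ k → Cmd Γ P) : Cmd Γ P
  | seq (p q : Cmd Γ P) : Cmd Γ P
  | loop (k : K) (t : Option (Γ k) → Bool) (b : Cmd Γ P) : Cmd Γ P
  | call (f : P) : Cmd Γ P

variable {Γ : K → Type} {P : Type}

/-- Big-step semantics with resources: `t` bounds the number of machine steps, `s` the total number
of symbols (user stacks + call depth) in all visited configurations. -/
inductive Runs (body : P → Cmd Γ P) : Cmd Γ P → Stacks Γ → ℕ → ℕ → Stacks Γ → Prop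
  | skip (X : Stacks Γ) : Runs body .skip X 1 (space X) X
  | push (k : K) (a : Γ k) (X : Stacks Γ) :
      Runs body (.push k a) X 1 (space (Function.update X k (a :: X k)))
        (Function.update X k (a :: X k))
  | caseNil {k : K} {e : Cmd Γ P} {f : Γ k → Cmd Γ P} {X X' : Stacks Γ} {t s : ℕ}
      (hk : X k = []) (h : Runs body e X t s X') :
      Runs body (.case k e f) X (t + 1) s X'
  | caseCons {k : K} {e : Cmd Γ P} {f : Γ k → Cmd Γ P} {X X' : Stacks Γ} {t s : ℕ}
      {a : Γ k} {l : List (Γ k)} (hk : X k = a :: l)
      (h : Runs body (f a) (Function.update X k l) t s X') :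
      Runs body (.case k e f) X (t + 1) (max (space X) s) X'
  | seq {p q : Cmd Γ P} {X X' X'' : Stacks Γ} {t₁ t₂ s₁ s₂ : ℕ}
      (h₁ : Runs body p X t₁ s₁ X') (h₂ : Runs body q X' t₂ s₂ X'') :
      Runs body (.seq p q) X (t₁ + t₂ + 1) (max s₁ s₂) X''
  | loopFalse {k : K} {t : Option (Γ k) → Bool} {b : Cmd Γ P} {X : Stacks Γ}
      (ht : t (X k).head? = false) :
      Runs body (.loop k t b) X 1 (space X) X
  | loopTrue {k : K} {t : Option (Γ k) → Bool} {b : Cmd Γ P} {X X' X'' : Stacks Γ}
      {t₁ t₂ s₁ s₂ : ℕ}
      (ht : t (X k).head? = true) (h₁ : Runs body b X t₁ s₁ X')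
      (h₂ : Runs body (.loop k t b) X' t₂ s₂ X'') :
      Runs body (.loop k t b) X (t₁ + t₂ + 1) (max s₁ s₂) X''
  | call {f : P} {X X' : Stacks Γ} {t s : ℕ} (h : Runs body (body f) X t s X') :
      Runs body (.call f) X (t + 2) (s + 1) X'
  | weaken {p : Cmd Γ P} {X X' : Stacks Γ} {t s t' s' : ℕ} (h : Runs body p X t s X')
      (ht : t ≤ t') (hs : s ≤ s') : Runs body p X t' s' X'

namespace Runs

variable {body : P → Cmd Γ P}

theorem space_le_left {p : Cmd Γ P} {X X' : Stacks Γ} {t s : ℕ} (h : Runs body p X t s X') :
    space X ≤ s := by
  induction h with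
  | skip X => exact le_rfl
  | push k a X =>
      unfold space
      apply Finset.sum_le_sum
      intro j _
      by_cases hj : j = k
      · subst hj; simp
      · simp [Function.update_of_ne hj]
  | caseNil hk h ih => exact ih
  | caseCons hk h ih => exact le_max_left _ _
  | seq h₁ h₂ ih₁ ih₂ => exact le_trans ih₁ (le_max_left _ _)
  | loopFalse ht => exact le_rfl
  | loopTrue ht h₁ h₂ ih₁ ih₂ => exact le_trans ih₁ (le_max_left _ _)
  | call h ih => exact le_trans ih (Nat.le_succ _)
  | weaken h ht hs ih => exact le_trans ih hs

theorem space_le_right {p : Cmd Γ P} {X X' : Stacks Γ} {t s : ℕ} (h : Runs body p X t s X') :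
    space X' ≤ s := by
  induction h with
  | skip X => exact le_rfl
  | push k a X => exact le_rfl
  | caseNil hk h ih => exact ih
  | caseCons hk h ih => exact le_trans ih (le_max_right _ _)
  | seq h₁ h₂ ih₁ ih₂ => exact le_trans ih₂ (le_max_right _ _)
  | loopFalse ht => exact le_rfl
  | loopTrue ht h₁ h₂ ih₁ ih₂ => exact le_trans ih₂ (le_max_right _ _)
  | call h ih => exact le_trans ih (Nat.le_succ _)
  | weaken h ht hs ih => exact le_trans ih hs

end Runs

/-! ### Labels: finitely many control stacks -/

section Machine

variable [∀ k, Fintype (Γ k)] [Fintype P]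

open Classical in
/-- The control stacks reached when running `c` with continuation `r`. -/
noncomputable def labels : Cmd Γ P → List (Cmd Γ P) → List (List (Cmd Γ P))
  | .skip, r => [.skip :: r]
  | .push k a, r => [.push k a :: r]
  | .case k e f, r => (.case k e f :: r) ::
      (labels e r ++ ((Finset.univ : Finset (Γ k)).toList.flatMap fun a => labels (f a) r))
  | .seq p q, r => (.seq p q :: r) :: (labels p (q :: r) ++ labels q r)
  | .loop k t b, r => (.loop k t b :: r) :: labels b (.loop k t b :: r)
  | .call f, r => [.call f :: r]

theorem head_mem_labels (c : Cmd Γ P) (r : List (Cmd Γ P)) : (c :: r) ∈ labels c r := by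
  cases c <;> simp [labels]

open Classical in
/-- All control stacks of a program. -/
noncomputable def allLabels (body : P → Cmd Γ P) (main : Cmd Γ P) : List (List (Cmd Γ P)) :=
  [] :: (labels main [] ++ ((Finset.univ : Finset P).toList.flatMap fun f => labels (body f) []))

/-- Label type of the machine. -/
def Lab (body : P → Cmd Γ P) (main : Cmd Γ P) : Type := { l // l ∈ allLabels body main }

noncomputable instance (body : P → Cmd Γ P) (main : Cmd Γ P) : Fintype (Lab body main) :=
  haveI : Finite (Lab body main) := List.finite_toSet _ |>.to_subtype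
  Fintype.ofFinite _

open Classical in
/-- Any control stack, as a label (junk value `[]` if not a label of the program). -/
noncomputable def lab (body : P → Cmd Γ P) (main : Cmd Γ P) (l : List (Cmd Γ P)) : Lab body main :=
  if h : l ∈ allLabels body main then ⟨l, h⟩ else ⟨[], by simp [allLabels]⟩

/-- Stack alphabets of the machine: the hidden stack `none` stores return labels. -/
def Γ' (body : P → Cmd Γ P) (main : Cmd Γ P) : Option K → Type
  | none => Lab body main
  | some k => Γ k

/-- Statement of a label. -/
noncomputable def stmtOf (body : P → Cmd Γ P) (main : Cmd Γ P) :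
    List (Cmd Γ P) → TM2.Stmt (Γ' body main) (Lab body main) (Option (Lab body main))
  | [] => TM2.Stmt.pop none (fun _ a => a)
      (TM2.Stmt.branch (fun v => v.isSome)
        (TM2.Stmt.goto fun v => v.getD (lab body main [])) TM2.Stmt.halt)
  | .skip :: r => TM2.Stmt.goto fun _ => lab body main r
  | .push k a :: r => TM2.Stmt.push (some k) (fun _ => a) (TM2.Stmt.goto fun _ => lab body main r)
  | .case k e f :: r => TM2.Stmt.pop (some k)
      (fun _ o => some (lab body main (match o with
        | none => e :: r
        | some a => f a :: r)))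
      (TM2.Stmt.goto fun v => v.getD (lab body main []))
  | .seq p q :: r => TM2.Stmt.goto fun _ => lab body main (p :: q :: r)
  | .loop k t b :: r => TM2.Stmt.peek (some k)
      (fun _ o => some (lab body main (if t o then b :: .loop k t b :: r else r)))
      (TM2.Stmt.goto fun v => v.getD (lab body main []))
  | .call f :: r => TM2.Stmt.push none (fun _ => lab body main r)
      (TM2.Stmt.goto fun _ => lab body main [body f])

/-- The machine of a program with input stack `k₀` and output stack `k₁`. -/
noncomputable def mkTM (body : P → Cmd Γ P) (main : Cmd Γ P) (k₀ k₁ : K) : FinTM2 :=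
  haveI : Fintype (Γ' body main (some k₀)) := inferInstanceAs (Fintype (Γ k₀))
  { K := Option K
    k₀ := some k₀
    k₁ := some k₁
    Γ := Γ' body main
    Λ := Lab body main
    main := lab body main [main]
    σ := Option (Lab body main)
    initialState := none
    m := fun l => stmtOf body main l.1 }

variable (body : P → Cmd Γ P) (main : Cmd Γ P) (k₀ k₁ : K)

/-- Configurations of `mkTM`. -/
def allStk (X : Stacks Γ) (ret : List (Lab body main)) : ∀ o : Option K, List (Γ' body main o)
  | none => ret
  | some k => X k

/-- Build a configuration of the machine. -/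
def mkCfg (l : Option (Lab body main)) (v : Option (Lab body main)) (X : Stacks Γ)
    (ret : List (Lab body main)) : (mkTM body main k₀ k₁).Cfg :=
  { l := l, var := v, stk := allStk body main X ret }

theorem allStk_update_some (X : Stacks Γ) (ret : List (Lab body main)) (k : K) (l : List (Γ k)) :
    Function.update (allStk body main X ret) (some k) l
      = allStk body main (Function.update X k l) ret := by
  funext o
  cases o with
  | none => simp [allStk]
  | some j =>
    by_cases h : j = k
    · subst h; simp [allStk]
    · have : (some j : Option K) ≠ some k := by simpa using h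
      simp [allStk, Function.update_of_ne this, Function.update_of_ne h]

theorem allStk_update_none (X : Stacks Γ) (ret ret' : List (Lab body main)) :
    Function.update (allStk body main X ret) none ret'
      = allStk body main X ret' := by
  funext o
  cases o with
  | none => simp [allStk]
  | some j => simp [allStk, Function.update_of_ne (show (some j : Option K) ≠ none by simp)]

theorem cfgSpace_mkCfg (l v : Option (Lab body main)) (X : Stacks Γ)
    (ret : List (Lab body main)) :
    Crest.SpaceSim.cfgSpace (mkTM body main k₀ k₁) (mkCfg body main k₀ k₁ l v X ret)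
      = space X + ret.length := by
  classical
  show (∑ x : Option K, (allStk body main X ret x).length) = _
  rw [Fintype.sum_option]
  simp only [allStk, space]
  exact Nat.add_comm _ _

theorem lab_of_mem {l : List (Cmd Γ P)} (h : l ∈ allLabels body main) :
    (lab body main l).1 = l := by
  simp [lab, h]

/-- One machine step from a label. -/
theorem step_mkCfg (l : List (Cmd Γ P)) (h : l ∈ allLabels body main) (v : Option (Lab body main))
    (X : Stacks Γ) (ret : List (Lab body main)) :
    (mkTM body main k₀ k₁).step (mkCfg body main k₀ k₁ (some (lab body main l)) v X ret)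
      = some (TM2.stepAux (stmtOf body main l) v (allStk body main X ret)) := by
  simp only [FinTM2.step, mkTM, mkCfg, TM2.step]
  rw [lab_of_mem body main h]
  rfl

/-- Reachability with resources. -/
def Reach (tm : FinTM2) (c c' : tm.Cfg) (t s : ℕ) : Prop :=
  ∃ n ≤ t, Crest.SpaceSim.stepN tm c n = some c' ∧
    ∀ m ≤ n, ∀ d, Crest.SpaceSim.stepN tm c m = some d → Crest.SpaceSim.cfgSpace tm d ≤ s

theorem stepN_add (tm : FinTM2) (c : tm.Cfg) (a b : ℕ) :
    Crest.SpaceSim.stepN tm c (a + b)
      = (Crest.SpaceSim.stepN tm c a).bind fun c' => Crest.SpaceSim.stepN tm c' b := by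
  induction b with
  | zero => simp [Crest.SpaceSim.stepN]
  | succ b ih =>
    rw [← Nat.add_assoc]
    simp only [Crest.SpaceSim.stepN]
    rw [ih, Option.bind_assoc]

namespace Reach

variable {tm : FinTM2}

theorem refl (c : tm.Cfg) {s : ℕ} (h : Crest.SpaceSim.cfgSpace tm c ≤ s) : Reach tm c c 0 s := by
  refine ⟨0, le_rfl, rfl, ?_⟩
  intro m hm d hd
  have : m = 0 := by omega
  subst this
  simp only [Crest.SpaceSim.stepN, Option.some.injEq] at hd
  subst hd; exact h

theorem ofStep {c c' : tm.Cfg} {s : ℕ} (hst : tm.step c = some c')
    (h : Crest.SpaceSim.cfgSpace tm c ≤ s) (h' : Crest.SpaceSim.cfgSpace tm c' ≤ s) :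
    Reach tm c c' 1 s := by
  have h1 : Crest.SpaceSim.stepN tm c 1 = some c' := hst
  refine ⟨1, le_rfl, h1, ?_⟩
  · intro m hm d hd
    interval_cases m
    · simp only [Crest.SpaceSim.stepN, Option.some.injEq] at hd
      subst hd; exact h
    · rw [h1] at hd
      simp only [Option.some.injEq] at hd
      subst hd; exact h'

theorem trans {c c' c'' : tm.Cfg} {t₁ t₂ s₁ s₂ : ℕ} (h₁ : Reach tm c c' t₁ s₁)
    (h₂ : Reach tm c' c'' t₂ s₂) : Reach tm c c'' (t₁ + t₂) (max s₁ s₂) := by
  obtain ⟨n₁, hn₁, he₁, hs₁⟩ := h₁
  obtain ⟨n₂, hn₂, he₂, hs₂⟩ := h₂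
  refine ⟨n₁ + n₂, by omega, ?_, ?_⟩
  · rw [stepN_add, he₁]; exact he₂
  · intro m hm d hd
    by_cases hm₁ : m ≤ n₁
    · exact le_trans (hs₁ m hm₁ d hd) (le_max_left _ _)
    · obtain ⟨k, rfl⟩ : ∃ k, m = n₁ + k := ⟨m - n₁, by omega⟩
      rw [stepN_add, he₁] at hd
      exact le_trans (hs₂ k (by omega) d hd) (le_max_right _ _)

theorem mono {c c' : tm.Cfg} {t s t' s' : ℕ} (h : Reach tm c c' t s) (ht : t ≤ t') (hs : s ≤ s') :
    Reach tm c c' t' s' := by
  obtain ⟨n, hn, he, hsp⟩ := h
  exact ⟨n, by omega, he, fun m hm d hd => le_trans (hsp m hm d hd) hs⟩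

end Reach

variable {body main k₀ k₁}

/-- The simulation theorem. -/
theorem sim {p : Cmd Γ P} {X X' : Stacks Γ} {t s : ℕ} (h : Runs body p X t s X') :
    ∀ (r : List (Cmd Γ P)), r ∈ allLabels body main →
      (∀ l ∈ labels p r, l ∈ allLabels body main) →
      ∀ (ret : List (Lab body main)) (v : Option (Lab body main)),
      ∃ v', Reach (mkTM body main k₀ k₁)
        (mkCfg body main k₀ k₁ (some (lab body main (p :: r))) v X ret)
        (mkCfg body main k₀ k₁ (some (lab body main r)) v' X' ret) t (s + ret.length) := by
  classical
  induction h with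
  | skip X =>
    intro r hr hp ret v
    refine ⟨v, Reach.ofStep ?_ ?_ ?_⟩
    · rw [step_mkCfg body main k₀ k₁ _ (hp _ (head_mem_labels _ _))]
      rfl
    · rw [cfgSpace_mkCfg]
    · rw [cfgSpace_mkCfg]
  | push k a X =>
    intro r hr hp ret v
    refine ⟨v, Reach.ofStep ?_ ?_ ?_⟩
    · rw [step_mkCfg body main k₀ k₁ _ (hp _ (head_mem_labels _ _))]
      simp only [stmtOf, TM2.stepAux, mkCfg]
      congr 2
      exact allStk_update_some body main X ret k (a :: X k)
    · rw [cfgSpace_mkCfg]
      have : space X ≤ space (Function.update X k (a :: X k)) :=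
        (Runs.push (body := body) k a X).space_le_left
      omega
    · rw [cfgSpace_mkCfg]
  | @caseNil k e f X X' t s hk h ih =>
    intro r hr hp ret v
    have hsub : ∀ l ∈ labels e r, l ∈ allLabels body main := fun l hl =>
      hp l (by simp [labels, hl])
    obtain ⟨v', hv'⟩ := ih r hr hsub ret (some (lab body main (e :: r)))
    refine ⟨v', ?_⟩
    have h1 : Reach (mkTM body main k₀ k₁)
        (mkCfg body main k₀ k₁ (some (lab body main (.case k e f :: r))) v X ret)
        (mkCfg body main k₀ k₁ (some (lab body main (e :: r))) (some (lab body main (e :: r))) X ret)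
        1 (s + ret.length) := by
      refine Reach.ofStep ?_ ?_ ?_
      · rw [step_mkCfg body main k₀ k₁ _ (hp _ (head_mem_labels _ _))]
        have hk' : allStk body main X ret (some k) = [] := hk
        simp only [stmtOf, TM2.stepAux, mkCfg, hk', List.head?_nil, List.tail_nil, Option.getD_some]
        congr 2
        rw [allStk_update_some]
        congr 1
        funext j
        by_cases hj : j = k
        · subst hj; rw [Function.update_self]; exact hk.symm
        · rw [Function.update_of_ne hj]
      · rw [cfgSpace_mkCfg]; have := h.space_le_left; omega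
      · rw [cfgSpace_mkCfg]; have := h.space_le_left; omega
    have := h1.trans hv'
    refine this.mono (by omega) (by simp)
  | @caseCons k e f X X' t s a l hk h ih =>
    intro r hr hp ret v
    have hsub : ∀ l' ∈ labels (f a) r, l' ∈ allLabels body main := fun l' hl =>
      hp l' (by
        simp only [labels, List.mem_cons, List.mem_append, List.mem_flatMap]
        exact Or.inr (Or.inr ⟨a, by simp, hl⟩))
    obtain ⟨v', hv'⟩ := ih r hr hsub ret (some (lab body main (f a :: r)))
    refine ⟨v', ?_⟩
    have h1 : Reach (mkTM body main k₀ k₁)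
        (mkCfg body main k₀ k₁ (some (lab body main (.case k e f :: r))) v X ret)
        (mkCfg body main k₀ k₁ (some (lab body main (f a :: r))) (some (lab body main (f a :: r)))
          (Function.update X k l) ret)
        1 (max (space X) s + ret.length) := by
      refine Reach.ofStep ?_ ?_ ?_
      · rw [step_mkCfg body main k₀ k₁ _ (hp _ (head_mem_labels _ _))]
        have hk' : allStk body main X ret (some k) = a :: l := hk
        simp only [stmtOf, TM2.stepAux, mkCfg, hk', List.head?_cons, List.tail_cons,
          Option.getD_some]
        congr 2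
        exact allStk_update_some _ _ _ _ _ _
      · rw [cfgSpace_mkCfg]; have := le_max_left (space X) s; omega
      · rw [cfgSpace_mkCfg]; have := h.space_le_left; have := le_max_right (space X) s; omega
    have := h1.trans hv'
    refine this.mono (by omega) ?_
    simp only [max_le_iff]
    constructor
    · exact le_rfl
    · have := le_max_right (space X) s; omega
  | @seq p q X X' X'' t₁ t₂ s₁ s₂ h₁ h₂ ih₁ ih₂ =>
    intro r hr hp ret v
    have hq : ∀ l ∈ labels q r, l ∈ allLabels body main := fun l hl =>
      hp l (by simp [labels, hl])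
    have hpp : ∀ l ∈ labels p (q :: r), l ∈ allLabels body main := fun l hl =>
      hp l (by simp [labels, hl])
    have hqr : (q :: r) ∈ allLabels body main := hq _ (head_mem_labels _ _)
    obtain ⟨v₁, hv₁⟩ := ih₁ (q :: r) hqr hpp ret (v)
    obtain ⟨v₂, hv₂⟩ := ih₂ r hr hq ret v₁
    refine ⟨v₂, ?_⟩
    have h0 : Reach (mkTM body main k₀ k₁)
        (mkCfg body main k₀ k₁ (some (lab body main (.seq p q :: r))) v X ret)
        (mkCfg body main k₀ k₁ (some (lab body main (p :: q :: r))) v X ret)
        1 (s₁ + ret.length) := by
      refine Reach.ofStep ?_ ?_ ?_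
      · rw [step_mkCfg body main k₀ k₁ _ (hp _ (head_mem_labels _ _))]
        rfl
      · rw [cfgSpace_mkCfg]; have := h₁.space_le_left; omega
      · rw [cfgSpace_mkCfg]; have := h₁.space_le_left; omega
    have := (h0.trans hv₁).trans hv₂
    refine this.mono (by omega) ?_
    simp only [max_le_iff]
    have := le_max_left s₁ s₂
    have := le_max_right s₁ s₂
    omega
  | @loopFalse k t b X ht =>
    intro r hr hp ret v
    refine ⟨some (lab body main r), Reach.ofStep ?_ ?_ ?_⟩
    · rw [step_mkCfg body main k₀ k₁ _ (hp _ (head_mem_labels _ _))]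
      have hgoal : ∀ w : Lab body main, (if t (X k).head? = true then (b :: Cmd.loop k t b :: r) else r) = r := by
        intro _; rw [ht]; simp
      show some (⟨some (lab body main (if t (X k).head? = true then (b :: Cmd.loop k t b :: r) else r)),
        some (lab body main (if t (X k).head? = true then (b :: Cmd.loop k t b :: r) else r)),
        allStk body main X ret⟩ : (mkTM body main k₀ k₁).Cfg) = _
      rw [hgoal (lab body main r)]
      rfl
    · rw [cfgSpace_mkCfg]
    · rw [cfgSpace_mkCfg]
  | @loopTrue k t b X X' X'' t₁ t₂ s₁ s₂ ht h₁ h₂ ih₁ ih₂ =>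
    intro r hr hp ret v
    have hb : ∀ l ∈ labels b (.loop k t b :: r), l ∈ allLabels body main := fun l hl =>
      hp l (by simp [labels, hl])
    have hself : (Cmd.loop k t b :: r) ∈ allLabels body main := hp _ (head_mem_labels _ _)
    obtain ⟨v₁, hv₁⟩ := ih₁ (.loop k t b :: r) hself hb ret
      (some (lab body main (b :: .loop k t b :: r)))
    obtain ⟨v₂, hv₂⟩ := ih₂ r hr hp ret v₁
    refine ⟨v₂, ?_⟩
    have h0 : Reach (mkTM body main k₀ k₁)
        (mkCfg body main k₀ k₁ (some (lab body main (.loop k t b :: r))) v X ret)
        (mkCfg body main k₀ k₁ (some (lab body main (b :: .loop k t b :: r)))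
          (some (lab body main (b :: .loop k t b :: r))) X ret)
        1 (s₁ + ret.length) := by
      refine Reach.ofStep ?_ ?_ ?_
      · rw [step_mkCfg body main k₀ k₁ _ (hp _ (head_mem_labels _ _))]
        have hgoal : (if t (X k).head? = true then (b :: Cmd.loop k t b :: r) else r)
            = b :: Cmd.loop k t b :: r := by
          rw [ht]; simp
        show some (⟨some (lab body main (if t (X k).head? = true then (b :: Cmd.loop k t b :: r) else r)),
          some (lab body main (if t (X k).head? = true then (b :: Cmd.loop k t b :: r) else r)),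
          allStk body main X ret⟩ : (mkTM body main k₀ k₁).Cfg) = _
        rw [hgoal]
        rfl
      · rw [cfgSpace_mkCfg]; have := h₁.space_le_left; omega
      · rw [cfgSpace_mkCfg]; have := h₁.space_le_left; omega
    have := (h0.trans hv₁).trans hv₂
    refine this.mono (by omega) ?_
    simp only [max_le_iff]
    have := le_max_left s₁ s₂
    have := le_max_right s₁ s₂
    omega
  | @call f X X' t s h ih =>
    intro r hr hp ret v
    have hbody : ∀ l ∈ labels (body f) [], l ∈ allLabels body main := fun l hl => by
      simp only [allLabels, List.mem_cons, List.mem_append, List.mem_flatMap]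
      exact Or.inr (Or.inr ⟨f, by simp, hl⟩)
    have hnil : ([] : List (Cmd Γ P)) ∈ allLabels body main := by simp [allLabels]
    obtain ⟨v₁, hv₁⟩ := ih [] hnil hbody (lab body main r :: ret) v
    refine ⟨some (lab body main r), ?_⟩
    have h0 : Reach (mkTM body main k₀ k₁)
        (mkCfg body main k₀ k₁ (some (lab body main (.call f :: r))) v X ret)
        (mkCfg body main k₀ k₁ (some (lab body main [body f])) v X (lab body main r :: ret))
        1 (s + 1 + ret.length) := by
      refine Reach.ofStep ?_ ?_ ?_
      · rw [step_mkCfg body main k₀ k₁ _ (hp _ (head_mem_labels _ _))]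
        simp only [stmtOf, TM2.stepAux, mkCfg]
        congr 2
        exact allStk_update_none body main X ret _
      · rw [cfgSpace_mkCfg]; have := h.space_le_left; omega
      · rw [cfgSpace_mkCfg]; have := h.space_le_left; simp only [List.length_cons]; omega
    have h2 : Reach (mkTM body main k₀ k₁)
        (mkCfg body main k₀ k₁ (some (lab body main [])) v₁ X' (lab body main r :: ret))
        (mkCfg body main k₀ k₁ (some (lab body main r)) (some (lab body main r)) X' ret)
        1 (s + 1 + ret.length) := by
      refine Reach.ofStep ?_ ?_ ?_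
      · rw [step_mkCfg body main k₀ k₁ _ hnil]
        show some (⟨some (lab body main r), some (lab body main r),
          Function.update (allStk body main X' (lab body main r :: ret)) none ret⟩ :
            (mkTM body main k₀ k₁).Cfg) = _
        congr 2
        exact allStk_update_none body main X' _ ret
      · rw [cfgSpace_mkCfg]; have := h.space_le_right; simp only [List.length_cons]; omega
      · rw [cfgSpace_mkCfg]; have := h.space_le_right; omega
    have := (h0.trans hv₁).trans h2
    refine this.mono (by omega) ?_
    simp only [max_le_iff, List.length_cons]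
    omega
  | @weaken p X X' t s t' s' h ht hs ih =>
    intro r hr hp ret v
    obtain ⟨v', hv'⟩ := ih r hr hp ret v
    exact ⟨v', hv'.mono ht (by omega)⟩

/-- Input stacks: `l` on stack `k₀`, all others empty. -/
def inpStacks (k₀ : K) (l : List (Γ k₀)) : Stacks Γ := Function.update (fun _ => []) k₀ l

theorem space_inpStacks (k₀ : K) (l : List (Γ k₀)) : space (inpStacks k₀ l) = l.length := by
  classical
  unfold space inpStacks
  rw [Finset.sum_eq_single k₀]
  · simp
  · intro b _ hb; simp [Function.update_of_ne hb]
  · simp

theorem initList_mkTM (l : List (Γ k₀)) :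
    initList (mkTM body main k₀ k₁) l
      = mkCfg body main k₀ k₁ (some (lab body main [main])) none (inpStacks k₀ l) [] := by
  unfold initList mkCfg
  congr 1
  funext o
  cases o with
  | none => rfl
  | some j =>
    by_cases hj : j = k₀
    · subst hj
      simp only [inpStacks, allStk, Function.update_self]
      exact dif_pos rfl
    · have : (some j : Option K) ≠ some k₀ := by simpa using hj
      simp only [inpStacks, allStk, Function.update_of_ne hj]
      exact dif_neg this

theorem haltList_mkTM (l : List (Γ k₁)) :
    haltList (mkTM body main k₀ k₁) l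
      = mkCfg body main k₀ k₁ none none (inpStacks k₁ l) [] := by
  unfold haltList mkCfg
  congr 1
  funext o
  cases o with
  | none => rfl
  | some j =>
    by_cases hj : j = k₁
    · subst hj
      simp only [inpStacks, allStk, Function.update_self]
      exact dif_pos rfl
    · have : (some j : Option K) ≠ some k₁ := by simpa using hj
      simp only [inpStacks, allStk, Function.update_of_ne hj]
      exact dif_neg this

/-- From a derivation for the main program to a machine run. -/
theorem reach_of_runs {l : List (Γ k₀)} {l' : List (Γ k₁)} {t s : ℕ}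
    (h : Runs body main (inpStacks k₀ l) t s (inpStacks k₁ l')) :
    Reach (mkTM body main k₀ k₁) (initList (mkTM body main k₀ k₁) l)
      (haltList (mkTM body main k₀ k₁) l') (t + 1) s := by
  classical
  have hnil : ([] : List (Cmd Γ P)) ∈ allLabels body main := by simp [allLabels]
  have hmain : ∀ l ∈ labels main [], l ∈ allLabels body main := fun l hl => by
    simp only [allLabels, List.mem_cons, List.mem_append]
    exact Or.inr (Or.inl hl)
  obtain ⟨v', hv'⟩ := sim (k₀ := k₀) (k₁ := k₁) h [] hnil hmain [] none
  rw [initList_mkTM, haltList_mkTM]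
  have h2 : Reach (mkTM body main k₀ k₁)
      (mkCfg body main k₀ k₁ (some (lab body main [])) v' (inpStacks k₁ l') [])
      (mkCfg body main k₀ k₁ none none (inpStacks k₁ l') [])
      1 s := by
    refine Reach.ofStep ?_ ?_ ?_
    · rw [step_mkCfg body main k₀ k₁ _ hnil]
      show some (⟨none, none,
          Function.update (allStk body main (inpStacks k₁ l') []) none []⟩ :
            (mkTM body main k₀ k₁).Cfg) = _
      congr 2
      exact allStk_update_none body main _ _ _
    · rw [cfgSpace_mkCfg]; have := h.space_le_right; simpa using this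
    · rw [cfgSpace_mkCfg]; have := h.space_le_right; simpa using this
  have := hv'.trans h2
  refine this.mono le_rfl ?_
  simp

/-- A derivation gives `OutputsInSpace`. -/
theorem outputsInSpace_of_runs {l : List (Γ k₀)} {l' : List (Γ k₁)} {t s : ℕ}
    (h : Runs body main (inpStacks k₀ l) t s (inpStacks k₁ l')) :
    Crest.SpaceSim.OutputsInSpace (mkTM body main k₀ k₁) l l' s := by
  obtain ⟨n, -, he, hs⟩ := reach_of_runs h
  exact ⟨n, he, hs⟩

/-- `stepN` agrees with iteration of `flip bind step`. -/
theorem stepN_eq_iterate (tm : FinTM2) (c : tm.Cfg) (n : ℕ) :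
    Crest.SpaceSim.stepN tm c n = (flip bind tm.step)^[n] (some c) := by
  induction n with
  | zero => rfl
  | succ n ih =>
    rw [Function.iterate_succ_apply', ← ih]
    rfl

/-- A derivation gives a timed output. -/
theorem outputsInTime_of_runs {l : List (Γ k₀)} {l' : List (Γ k₁)} {t s : ℕ}
    (h : Runs body main (inpStacks k₀ l) t s (inpStacks k₁ l')) :
    Nonempty (TM2OutputsInTime (mkTM body main k₀ k₁) l (some l') (t + 1)) := by
  obtain ⟨n, hn, he, -⟩ := reach_of_runs h
  refine ⟨⟨⟨n, ?_⟩, hn⟩⟩
  have := stepN_eq_iterate (mkTM body main k₀ k₁) (initList (mkTM body main k₀ k₁) l) n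
  rw [he] at this
  exact this.symm

end Machine

end Crest.Agent.StackLang
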